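import Vale.Agent.P340.Defs

/-!
Pure type systems with definitions (Severi and Poll), with de Bruijn indices.
-/

namespace Vale.Agent.N340

open Vale.Agent.P340

universe u

/-- Expressions with local definitions: `dfn A a b` is `x = a : A in b`. -/
inductive DTm (S : Type u) : Type u where
  | var : ℕ → DTm S
  | sort : S → DTm S
  | app : DTm S → DTm S → DTm S
  | lam : DTm S → DTm S → DTm S
  | pi : DTm S → DTm S → DTm S
  | dfn : DTm S → DTm S → DTm S → DTm S

variable {S : Type u}

namespace DTm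

/-- Renaming of the free variables. -/
def ren : (ℕ → ℕ) → DTm S → DTm S
  | r, var n => var (r n)
  | _, sort s => sort s
  | r, app M N => app (ren r M) (ren r N)
  | r, lam A M => lam (ren r A) (ren (Tm.up r) M)
  | r, pi A B => pi (ren r A) (ren (Tm.up r) B)
  | r, dfn A a b => dfn (ren r A) (ren r a) (ren (Tm.up r) b)

/-- Weakening: shift of all free variables by one. -/
def wk (M : DTm S) : DTm S := ren Nat.succ M

/-- Lifting of a substitution under a binder. -/
def ups (σ : ℕ → DTm S) : ℕ → DTm S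
  | 0 => var 0
  | n + 1 => wk (σ n)

/-- Simultaneous capture-avoiding substitution. -/
def sub : (ℕ → DTm S) → DTm S → DTm S
  | σ, var n => σ n
  | _, sort s => sort s
  | σ, app M N => app (sub σ M) (sub σ N)
  | σ, lam A M => lam (sub σ A) (sub (ups σ) M)
  | σ, pi A B => pi (sub σ A) (sub (ups σ) B)
  | σ, dfn A a b => dfn (sub σ A) (sub σ a) (sub (ups σ) b)

/-- The substitution replacing the variable `0` by `N` and lowering the others. -/
def single (N : DTm S) : ℕ → DTm S
  | 0 => N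
  | n + 1 => var n

/-- `inst M N` is `M[x := N]`, where `x` is the variable `0` of `M`. -/
def inst (M N : DTm S) : DTm S := sub (single N) M

end DTm

open DTm

/-- Contexts: an entry `(A, none)` is a declaration `x : A`, an entry `(A, some a)` is a definition
`x = a : A`. -/
abbrev DCtx (S : Type u) : Type u := List (DTm S × Option (DTm S))

/-- `Defn Γ n a`: the variable `n` is defined as `a` in `Γ`. -/
inductive Defn : DCtx S → ℕ → DTm S → Prop where
  | zero (Γ : DCtx S) (A a : DTm S) : Defn ((A, some a) :: Γ) 0 (wk a)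
  | succ {Γ : DCtx S} {n : ℕ} {a : DTm S} (e : DTm S × Option (DTm S)) :
      Defn Γ n a → Defn (e :: Γ) (n + 1) (wk a)

/-- One step of beta reduction, of unfolding one occurrence of a defined variable, or of removing
a local definition, in any subexpression. -/
inductive DStep : DCtx S → DTm S → DTm S → Prop where
  | beta (Γ : DCtx S) (A M N : DTm S) : DStep Γ (app (lam A M) N) (inst M N)
  | unfold {Γ : DCtx S} {n : ℕ} {a : DTm S} : Defn Γ n a → DStep Γ (var n) a
  | remove (Γ : DCtx S) (A a b : DTm S) : DStep Γ (dfn A a b) (inst b a)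
  | appL {Γ : DCtx S} {M M' : DTm S} (N : DTm S) : DStep Γ M M' → DStep Γ (app M N) (app M' N)
  | appR {Γ : DCtx S} (M : DTm S) {N N' : DTm S} : DStep Γ N N' → DStep Γ (app M N) (app M N')
  | lamL {Γ : DCtx S} {A A' : DTm S} (M : DTm S) : DStep Γ A A' → DStep Γ (lam A M) (lam A' M)
  | lamR {Γ : DCtx S} (A : DTm S) {M M' : DTm S} :
      DStep ((A, none) :: Γ) M M' → DStep Γ (lam A M) (lam A M')
  | piL {Γ : DCtx S} {A A' : DTm S} (B : DTm S) : DStep Γ A A' → DStep Γ (pi A B) (pi A' B)
  | piR {Γ : DCtx S} (A : DTm S) {B B' : DTm S} :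
      DStep ((A, none) :: Γ) B B' → DStep Γ (pi A B) (pi A B')
  | dfnT {Γ : DCtx S} {A A' : DTm S} (a b : DTm S) :
      DStep Γ A A' → DStep Γ (dfn A a b) (dfn A' a b)
  | dfnV {Γ : DCtx S} (A : DTm S) {a a' : DTm S} (b : DTm S) :
      DStep Γ a a' → DStep Γ (dfn A a b) (dfn A a' b)
  | dfnB {Γ : DCtx S} (A a : DTm S) {b b' : DTm S} :
      DStep ((A, some a) :: Γ) b b' → DStep Γ (dfn A a b) (dfn A a b')

/-- Typing in the pure type system with definitions. -/
inductive DTyp (P : Spec S) : DCtx S → DTm S → DTm S → Prop where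
  | ax {s t : S} : P.ax s t → DTyp P [] (sort s) (sort t)
  | var {Γ : DCtx S} {A : DTm S} {s : S} :
      DTyp P Γ A (sort s) → DTyp P ((A, none) :: Γ) (var 0) (wk A)
  | weak {Γ : DCtx S} {M B A : DTm S} {s : S} :
      DTyp P Γ M B → DTyp P Γ A (sort s) → DTyp P ((A, none) :: Γ) (wk M) (wk B)
  | dvar {Γ : DCtx S} {A a : DTm S} :
      DTyp P Γ a A → DTyp P ((A, some a) :: Γ) (var 0) (wk A)
  | dweak {Γ : DCtx S} {M B A a : DTm S} :
      DTyp P Γ M B → DTyp P Γ a A → DTyp P ((A, some a) :: Γ) (wk M) (wk B)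
  | pi {Γ : DCtx S} {A B : DTm S} {s₁ s₂ s₃ : S} :
      DTyp P Γ A (sort s₁) → DTyp P ((A, none) :: Γ) B (sort s₂) → P.rule s₁ s₂ s₃ →
      DTyp P Γ (pi A B) (sort s₃)
  | lam {Γ : DCtx S} {A M B : DTm S} {s : S} :
      DTyp P ((A, none) :: Γ) M B → DTyp P Γ (pi A B) (sort s) → DTyp P Γ (lam A M) (pi A B)
  | app {Γ : DCtx S} {M N A B : DTm S} :
      DTyp P Γ M (pi A B) → DTyp P Γ N A → DTyp P Γ (app M N) (inst B N)
  | dfn {Γ : DCtx S} {A a b B : DTm S} :
      DTyp P ((A, some a) :: Γ) b B → DTyp P Γ (dfn A a b) (inst B a)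
  | conv {Γ : DCtx S} {M A B : DTm S} {s : S} :
      DTyp P Γ M A → DTyp P Γ B (sort s) → Relation.EqvGen (DStep Γ) A B → DTyp P Γ M B

/-- An expression is legal in `Γ` if it is the subject or the type of a judgment in `Γ`. -/
def DLegal (P : Spec S) (Γ : DCtx S) (M : DTm S) : Prop :=
  ∃ A, DTyp P Γ M A ∨ DTyp P Γ A M

/-- Weak normalization of the system with definitions. -/
def DWN (P : Spec S) : Prop :=
  ∀ Γ M, DLegal P Γ M → ∃ N, Relation.ReflTransGen (DStep Γ) M N ∧ ∀ Q, ¬ DStep Γ N Q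

/-- Strong normalization of the system with definitions. -/
def DSN (P : Spec S) : Prop :=
  ∀ Γ M, DLegal P Γ M → ¬ ∃ f : ℕ → DTm S, f 0 = M ∧ ∀ n, DStep Γ (f n) (f (n + 1))

end Vale.Agent.N340
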