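import Vale.Agent.N340.Mem

/-! Forgetting memories. -/

namespace Vale.Agent.N340

open Vale.Agent.P340 Vale.Agent.P340.W Relation

universe u
variable {S : Type u} {P : Spec S}

/-- `Drop M N`: `N` is obtained from `M` by forgetting some memories. -/
inductive Drop : MTm S → MTm S → Prop where
  | var (n : ℕ) : Drop (.var n) (.var n)
  | sort (s : S) : Drop (.sort s) (.sort s)
  | app {M M' N N' : MTm S} : Drop M M' → Drop N N' → Drop (.app M N) (.app M' N')
  | lam {M M' N N' : MTm S} : Drop M M' → Drop N N' → Drop (.lam M N) (.lam M' N')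
  | pi {M M' N N' : MTm S} : Drop M M' → Drop N N' → Drop (.pi M N) (.pi M' N')
  | mem {M M' N N' : MTm S} : Drop M M' → Drop N N' → Drop (.mem M N) (.mem M' N')
  | drop {M M' : MTm S} (Q : MTm S) : Drop M M' → Drop (.mem M Q) M'

theorem Drop.refl (M : MTm S) : Drop M M := by
  induction M with
  | var n => exact .var n
  | sort s => exact .sort s
  | app _ _ ih ih' => exact .app ih ih'
  | lam _ _ ih ih' => exact .lam ih ih'
  | pi _ _ ih ih' => exact .pi ih ih'
  | mem _ _ ih ih' => exact .mem ih ih'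

theorem Drop.trans {M N : MTm S} (h : Drop M N) : ∀ {Q : MTm S}, Drop N Q → Drop M Q := by
  induction h with
  | var n => intro Q h; exact h
  | sort s => intro Q h; exact h
  | app _ _ ih ih' => intro Q h; cases h with | app h h' => exact .app (ih h) (ih' h')
  | lam _ _ ih ih' => intro Q h; cases h with | lam h h' => exact .lam (ih h) (ih' h')
  | pi _ _ ih ih' => intro Q h; cases h with | pi h h' => exact .pi (ih h) (ih' h')
  | mem _ _ ih ih' =>
    intro Q h
    cases h with
    | mem h h' => exact .mem (ih h) (ih' h')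
    | drop _ h => exact .drop _ (ih h)
  | drop _ _ ih => intro Q h; exact .drop _ (ih h)

theorem Drop.ren {M N : MTm S} (h : Drop M N) : ∀ r : ℕ → ℕ, Drop (M.ren r) (N.ren r) := by
  induction h with
  | var n => intro r; exact .var _
  | sort s => intro r; exact .sort _
  | app _ _ ih ih' => intro r; exact .app (ih _) (ih' _)
  | lam _ _ ih ih' => intro r; exact .lam (ih _) (ih' _)
  | pi _ _ ih ih' => intro r; exact .pi (ih _) (ih' _)
  | mem _ _ ih ih' => intro r; exact .mem (ih _) (ih' _)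
  | drop _ _ ih => intro r; exact .drop _ (ih _)

theorem Drop.ups {σ τ : ℕ → MTm S} (h : ∀ n, Drop (σ n) (τ n)) :
    ∀ n, Drop (MTm.ups σ n) (MTm.ups τ n) := by
  intro n
  cases n with
  | zero => exact .var 0
  | succ n => exact (h n).ren _

theorem Drop.sub {M N : MTm S} (h : Drop M N) : ∀ {σ τ : ℕ → MTm S},
    (∀ n, Drop (σ n) (τ n)) → Drop (M.sub σ) (N.sub τ) := by
  induction h with
  | var n => intro σ τ h; exact h n
  | sort s => intro σ τ _; exact .sort _
  | app _ _ ih ih' => intro σ τ h; exact .app (ih h) (ih' h)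
  | lam _ _ ih ih' => intro σ τ h; exact .lam (ih h) (ih' (Drop.ups h))
  | pi _ _ ih ih' => intro σ τ h; exact .pi (ih h) (ih' (Drop.ups h))
  | mem _ _ ih ih' => intro σ τ h; exact .mem (ih h) (ih' h)
  | drop _ _ ih => intro σ τ h; exact .drop _ (ih h)

theorem Drop.scons {M N : MTm S} (h : Drop M N) (σ : ℕ → MTm S) :
    ∀ n, Drop (MTm.scons M σ n) (MTm.scons N σ n) := by
  intro n
  cases n with
  | zero => exact h
  | succ n => exact .refl _

theorem Drop.er {M N : MTm S} (h : Drop M N) : M.er = N.er := by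
  induction h with
  | var n => rfl
  | sort s => rfl
  | app _ _ ih ih' => simp only [MTm.er, ih, ih']
  | lam _ _ ih ih' => simp only [MTm.er, ih, ih']
  | pi _ _ ih ih' => simp only [MTm.er, ih, ih']
  | mem _ _ ih _ => exact ih
  | drop _ _ ih => exact ih

theorem OkL.drop {M N : MTm S} (h : Drop M N) :
    ∀ {Γ : List (Tm S)}, OkL P Γ M → OkL P Γ N := by
  induction h with
  | var n => intro Γ h; exact h
  | sort s => intro Γ h; exact h
  | app _ _ ih ih' => intro Γ h; cases h with | app h h' => exact .app (ih h) (ih' h')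
  | lam h1 _ ih ih' =>
    intro Γ h
    cases h with | lam h h' => exact .lam (ih h) (by rw [← h1.er]; exact ih' h')
  | pi h1 _ ih ih' =>
    intro Γ h
    cases h with | pi h h' => exact .pi (ih h) (by rw [← h1.er]; exact ih' h')
  | mem _ h2 ih ih' =>
    intro Γ h
    cases h with | mem h h' h'' => exact .mem (ih h) (ih' h') (by rw [← h2.er]; exact h'')
  | drop _ _ ih => intro Γ h; cases h with | mem h _ _ => exact ih h

/-- Size. -/
def sz : MTm S → ℕ
  | .var _ => 1
  | .sort _ => 1
  | .app M N => sz M + sz N + 1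
  | .lam M N => sz M + sz N + 1
  | .pi M N => sz M + sz N + 1
  | .mem M N => sz M + sz N + 1

theorem Drop.sz_le {M N : MTm S} (h : Drop M N) : sz N ≤ sz M := by
  induction h with
  | var n => exact le_rfl
  | sort s => exact le_rfl
  | app _ _ ih ih' => simp only [sz]; omega
  | lam _ _ ih ih' => simp only [sz]; omega
  | pi _ _ ih ih' => simp only [sz]; omega
  | mem _ _ ih ih' => simp only [sz]; omega
  | drop _ _ ih => simp only [sz]; omega

theorem Drop.ctr {F F' : MTm S} (h : Drop F F') : ∀ {N N' R' : MTm S}, Drop N N' →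
    W.Ctr F' N' R' → ∃ R, W.Ctr F N R ∧ Drop R R' := by
  induction h with
  | var n => intro N N' R' _ h; cases h
  | sort s => intro N N' R' _ h; cases h
  | app _ _ _ _ => intro N N' R' _ h; cases h
  | pi _ _ _ _ => intro N N' R' _ h; cases h
  | lam h1 h2 _ _ =>
    intro N N' R' hN h
    cases h
    exact ⟨_, .lam _ _ _, .mem (.mem (h2.sub (hN.scons _)) hN) h1⟩
  | mem _ h2 ih _ =>
    intro N N' R' hN h
    cases h with
    | mem _ h =>
      obtain ⟨R, h3, h4⟩ := ih hN h
      exact ⟨_, .mem _ h3, .mem h4 h2⟩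
  | drop Q _ ih =>
    intro N N' R' hN h
    obtain ⟨R, h3, h4⟩ := ih hN h
    exact ⟨_, .mem Q h3, .drop _ h4⟩

theorem Drop.st {M M' : MTm S} (h : Drop M M') : ∀ {N' : MTm S}, W.St M' N' →
    ∃ N, W.St M N ∧ Drop N N' := by
  induction h with
  | var n => intro N' h; cases h
  | sort s => intro N' h; cases h
  | app h1 h2 ih ih' =>
    intro N' h
    cases h with
    | root h => obtain ⟨R, h3, h4⟩ := h1.ctr h2 h; exact ⟨_, .root h3, h4⟩
    | appL _ h => obtain ⟨R, h3, h4⟩ := ih h; exact ⟨_, .appL _ h3, .app h4 h2⟩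
    | appR _ h => obtain ⟨R, h3, h4⟩ := ih' h; exact ⟨_, .appR _ h3, .app h1 h4⟩
  | lam h1 h2 ih ih' =>
    intro N' h
    cases h with
    | lamL _ h => obtain ⟨R, h3, h4⟩ := ih h; exact ⟨_, .lamL _ h3, .lam h4 h2⟩
    | lamR _ h => obtain ⟨R, h3, h4⟩ := ih' h; exact ⟨_, .lamR _ h3, .lam h1 h4⟩
  | pi h1 h2 ih ih' =>
    intro N' h
    cases h with
    | piL _ h => obtain ⟨R, h3, h4⟩ := ih h; exact ⟨_, .piL _ h3, .pi h4 h2⟩
    | piR _ h => obtain ⟨R, h3, h4⟩ := ih' h; exact ⟨_, .piR _ h3, .pi h1 h4⟩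
  | mem h1 h2 ih ih' =>
    intro N' h
    cases h with
    | memL _ h => obtain ⟨R, h3, h4⟩ := ih h; exact ⟨_, .memL _ h3, .mem h4 h2⟩
    | memR _ h => obtain ⟨R, h3, h4⟩ := ih' h; exact ⟨_, .memR _ h3, .mem h1 h4⟩
  | drop Q _ ih =>
    intro N' h
    obtain ⟨R, h3, h4⟩ := ih h
    exact ⟨_, .memL _ h3, .drop _ h4⟩

theorem Drop.sp {M M' N' : MTm S} (h : Drop M M') (h' : TransGen W.St M' N') :
    ∃ N, TransGen W.St M N ∧ Drop N N' := by
  induction h' with
  | single h' => obtain ⟨N, h1, h2⟩ := h.st h'; exact ⟨N, .single h1, h2⟩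
  | tail _ h' ih =>
    obtain ⟨N, h1, h2⟩ := ih
    obtain ⟨N2, h3, h4⟩ := h2.st h'
    exact ⟨N2, .tail h1 h3, h4⟩

/-! Reduction is closed under renaming and in the substituted expressions. -/

theorem ctr_ren {F N R : MTm S} (h : W.Ctr F N R) (r : ℕ → ℕ) :
    W.Ctr (F.ren r) (N.ren r) (R.ren r) := by
  induction h with
  | lam A M N =>
    show W.Ctr _ _ (MTm.mem (MTm.mem ((MTm.inst M N).ren r) (N.ren r)) (A.ren r))
    rw [MTm.ren_inst]
    exact .lam _ _ _
  | mem Q _ ih => exact .mem _ ih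

theorem st_ren {M N : MTm S} (h : W.St M N) : ∀ r : ℕ → ℕ, W.St (M.ren r) (N.ren r) := by
  induction h with
  | root h => intro r; exact .root (ctr_ren h r)
  | appL _ _ ih => intro r; exact .appL _ (ih _)
  | appR _ _ ih => intro r; exact .appR _ (ih _)
  | lamL _ _ ih => intro r; exact .lamL _ (ih _)
  | lamR _ _ ih => intro r; exact .lamR _ (ih _)
  | piL _ _ ih => intro r; exact .piL _ (ih _)
  | piR _ _ ih => intro r; exact .piR _ (ih _)
  | memL _ _ ih => intro r; exact .memL _ (ih _)
  | memR _ _ ih => intro r; exact .memR _ (ih _)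

theorem sts_ups {σ τ : ℕ → MTm S} (h : ∀ n, W.Sts (σ n) (τ n)) :
    ∀ n, W.Sts (MTm.ups σ n) (MTm.ups τ n) := by
  intro n
  cases n with
  | zero => exact .refl _
  | succ n => exact (h n).map (fun M => M.ren Nat.succ) fun _ _ h => st_ren h _

theorem sts_sub (M : MTm S) : ∀ {σ τ : ℕ → MTm S}, (∀ n, W.Sts (σ n) (τ n)) →
    W.Sts (M.sub σ) (M.sub τ) := by
  induction M with
  | var n => intro σ τ h; exact h n
  | sort s => intro σ τ _; exact .refl _
  | app _ _ ih ih' => intro σ τ h; exact .app (ih h) (ih' h)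
  | lam _ _ ih ih' => intro σ τ h; exact .lam (ih h) (ih' (sts_ups h))
  | pi _ _ ih ih' => intro σ τ h; exact .pi (ih h) (ih' (sts_ups h))
  | mem _ _ ih ih' => intro σ τ h; exact .mem (ih h) (ih' h)

/-- At least one step and then forgetting, or forgetting at least one memory. -/
def Dec (M N : MTm S) : Prop :=
  (∃ Q, TransGen W.St M Q ∧ Drop Q N) ∨ (Drop M N ∧ sz N < sz M)

theorem Dec.map (f : MTm S → MTm S) (hf : ∀ a b, W.St a b → W.St (f a) (f b))
    (hd : ∀ a b, Drop a b → Drop (f a) (f b)) (hs : ∀ a b, sz a < sz b → sz (f a) < sz (f b))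
    {M N : MTm S} (h : Dec M N) : Dec (f M) (f N) := by
  rcases h with ⟨Q, h1, h2⟩ | ⟨h1, h2⟩
  · exact .inl ⟨f Q, W.Sp.map f hf h1, hd _ _ h2⟩
  · exact .inr ⟨hd _ _ h1, hs _ _ h2⟩

theorem Dec.conv {M N : MTm S} (h : Dec M N) : Conv M.er N.er := by
  rcases h with ⟨Q, h1, h2⟩ | ⟨h1, -⟩
  · rw [← h2.er]
    exact (W.Sts.er h1.to_reflTransGen).conv
  · rw [h1.er]
    exact .refl _

theorem acc_dec {M : MTm S} (h : Acc (fun a b => W.St b a) M) :
    Acc (fun a b : MTm S => Dec b a) M := by
  have key : ∀ t : MTm S, Acc (fun a b => TransGen W.St b a) t →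
      ∀ n (N : MTm S), sz N < n → Drop t N → Acc (fun a b : MTm S => Dec b a) N := by
    intro t ht
    induction ht with
    | intro t _ ih =>
      intro n
      induction n with
      | zero => intro N hN; omega
      | succ n ihn =>
        intro N hN hd
        refine Acc.intro _ fun Q hQ => ?_
        rcases hQ with ⟨R, h1, h2⟩ | ⟨h1, h2⟩
        · obtain ⟨t', h3, h4⟩ := hd.sp h1
          exact ih t' h3 _ Q (Nat.lt_succ_self _) (h4.trans h2)
        · exact ihn Q (by omega) (hd.trans h1)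
  have h2 : Acc (fun a b => TransGen W.St b a) M := by
    have := h.transGen
    refine Subrelation.accessible (fun {a b} hab => ?_) this
    induction hab with
    | single h => exact .single h
    | tail _ h ih => exact TransGen.head h ih
  exact key M h2 _ M (Nat.lt_succ_self _) (.refl _)

end Vale.Agent.N340
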