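import Vale.Agent.N340.Defs
import Vale.Agent.N340.Drop

/-! Translation of definitions into memories. -/

namespace Vale.Agent.N340

open Vale.Agent.P340 Vale.Agent.P340.W Relation

universe u
variable {S : Type u} {P : Spec S}

/-- Definitions are unfolded, and kept in memories. -/
def tr : (ℕ → MTm S) → DTm S → MTm S
  | ρ, .var n => ρ n
  | _, .sort s => .sort s
  | ρ, .app M N => .app (tr ρ M) (tr ρ N)
  | ρ, .lam A M => .lam (tr ρ A) (tr (MTm.ups ρ) M)
  | ρ, .pi A M => .pi (tr ρ A) (tr (MTm.ups ρ) M)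
  | ρ, .dfn A a b =>
    .mem (.mem (tr (MTm.scons (.mem (tr ρ a) (tr ρ a)) ρ) b) (tr ρ a)) (tr ρ A)

theorem scons_up (m : MTm S) (ρ : ℕ → MTm S) (r : ℕ → ℕ) :
    (fun n => MTm.scons m ρ (Tm.up r n)) = MTm.scons m fun n => ρ (r n) := by
  funext n; cases n <;> rfl

theorem tr_ren (M : DTm S) : ∀ (r : ℕ → ℕ) (ρ : ℕ → MTm S),
    tr ρ (M.ren r) = tr (fun n => ρ (r n)) M := by
  induction M with
  | var n => intros; rfl
  | sort s => intros; rfl
  | app M N ih ih' => intros; simp only [DTm.ren, tr, ih, ih']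
  | lam M N ih ih' => intros; simp only [DTm.ren, tr, ih, ih', MTm.ups_up]
  | pi M N ih ih' => intros; simp only [DTm.ren, tr, ih, ih', MTm.ups_up]
  | dfn A a b ih ih' ih'' => intros; simp only [DTm.ren, tr, ih, ih', ih'', scons_up]

theorem sub_scons (m : MTm S) (ρ τ : ℕ → MTm S) :
    (fun n => (MTm.scons m ρ n).sub τ) = MTm.scons (m.sub τ) fun n => (ρ n).sub τ := by
  funext n; cases n <;> rfl

theorem sub_tr (M : DTm S) : ∀ (ρ τ : ℕ → MTm S),
    (tr ρ M).sub τ = tr (fun n => (ρ n).sub τ) M := by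
  induction M with
  | var n => intros; rfl
  | sort s => intros; rfl
  | app M N ih ih' => intros; simp only [MTm.sub, tr, ih, ih']
  | lam M N ih ih' => intros; simp only [MTm.sub, tr, ih, ih', MTm.sub_ups]
  | pi M N ih ih' => intros; simp only [MTm.sub, tr, ih, ih', MTm.sub_ups]
  | dfn A a b ih ih' ih'' => intros; simp only [MTm.sub, tr, ih, ih', ih'', sub_scons]

theorem tr_eq_sub (M : DTm S) (ρ : ℕ → MTm S) : tr ρ M = (tr MTm.var M).sub ρ := by
  rw [sub_tr]; rfl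

theorem tr_ups_wk (M : DTm S) (ρ : ℕ → MTm S) : tr (MTm.ups ρ) M.wk = (tr ρ M).wk := by
  unfold DTm.wk MTm.wk
  rw [tr_ren, MTm.ren_eq_sub, sub_tr]
  congr 1
  funext n
  exact MTm.ren_eq_sub _ _

theorem tr_scons_wk (M : DTm S) (m : MTm S) (ρ : ℕ → MTm S) :
    tr (MTm.scons m ρ) M.wk = tr ρ M := by
  unfold DTm.wk
  rw [tr_ren]
  rfl

theorem tr_ups_ups (σ : ℕ → DTm S) (ρ : ℕ → MTm S) :
    (fun n => tr (MTm.ups ρ) (DTm.ups σ n)) = MTm.ups fun n => tr ρ (σ n) := by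
  funext n
  cases n with
  | zero => rfl
  | succ n => exact tr_ups_wk _ _

theorem tr_scons_ups (σ : ℕ → DTm S) (m : MTm S) (ρ : ℕ → MTm S) :
    (fun n => tr (MTm.scons m ρ) (DTm.ups σ n)) = MTm.scons m fun n => tr ρ (σ n) := by
  funext n
  cases n with
  | zero => rfl
  | succ n => exact tr_scons_wk _ _ _

theorem tr_sub (M : DTm S) : ∀ (σ : ℕ → DTm S) (ρ : ℕ → MTm S),
    tr ρ (M.sub σ) = tr (fun n => tr ρ (σ n)) M := by
  induction M with
  | var n => intros; rfl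
  | sort s => intros; rfl
  | app M N ih ih' => intros; simp only [DTm.sub, tr, ih, ih']
  | lam M N ih ih' => intros; simp only [DTm.sub, tr, ih, ih', tr_ups_ups]
  | pi M N ih ih' => intros; simp only [DTm.sub, tr, ih, ih', tr_ups_ups]
  | dfn A a b ih ih' ih'' => intros; simp only [DTm.sub, tr, ih, ih', ih'', tr_scons_ups]

theorem tr_inst (M N : DTm S) (ρ : ℕ → MTm S) :
    tr ρ (M.inst N) = tr (MTm.scons (tr ρ N) ρ) M := by
  unfold DTm.inst
  rw [tr_sub]
  congr 1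
  funext n
  cases n <;> rfl

theorem inst_tr (M : DTm S) (N : MTm S) (ρ : ℕ → MTm S) :
    MTm.inst (tr (MTm.ups ρ) M) N = tr (MTm.scons N ρ) M := by
  rw [tr_eq_sub M (MTm.ups ρ), MTm.inst_ups, ← tr_eq_sub]

theorem tr_drop (M : DTm S) {ρ τ : ℕ → MTm S} (h : ∀ n, Drop (ρ n) (τ n)) :
    Drop (tr ρ M) (tr τ M) := by
  rw [tr_eq_sub M ρ, tr_eq_sub M τ]
  exact (Drop.refl _).sub h

theorem tr_sts (M : DTm S) {ρ τ : ℕ → MTm S} (h : ∀ n, W.Sts (ρ n) (τ n)) :
    W.Sts (tr ρ M) (tr τ M) := by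
  rw [tr_eq_sub M ρ, tr_eq_sub M τ]
  exact sts_sub _ h

/-- The environment knows the definitions of the context. -/
def Match (Γ : DCtx S) (ρ : ℕ → MTm S) : Prop :=
  ∀ n a, Defn Γ n a → ρ n = .mem (tr ρ a) (tr ρ a)

theorem Match.ups {Γ : DCtx S} {ρ : ℕ → MTm S} (h : Match Γ ρ) (A : DTm S) :
    Match ((A, none) :: Γ) (MTm.ups ρ) := by
  intro n a hn
  cases hn with
  | succ _ hn =>
    rw [tr_ups_wk]
    show MTm.wk (ρ _) = _
    rw [h _ _ hn]
    rfl

theorem Match.scons {Γ : DCtx S} {ρ : ℕ → MTm S} (h : Match Γ ρ) (A a : DTm S) :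
    Match ((A, some a) :: Γ) (MTm.scons (.mem (tr ρ a) (tr ρ a)) ρ) := by
  intro n b hn
  cases hn with
  | zero => rw [tr_scons_wk]; rfl
  | succ _ hn =>
    rw [tr_scons_wk]
    exact h _ _ hn

theorem sz_pos (M : MTm S) : 0 < sz M := by
  cases M <;> simp only [sz] <;> omega

theorem DStep.dec {Γ : DCtx S} {M N : DTm S} (h : DStep Γ M N) :
    ∀ {ρ : ℕ → MTm S}, Match Γ ρ → Dec (tr ρ M) (tr ρ N) := by
  induction h with
  | beta Γ A M N =>
    intro ρ _
    refine .inl ⟨_, .single (.root (.lam _ _ _)), .drop _ (.drop _ ?_)⟩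
    rw [inst_tr, tr_inst]
    exact .refl _
  | @unfold Γ n a h =>
    intro ρ hρ
    show Dec (ρ n) _
    rw [hρ _ _ h]
    refine .inr ⟨.drop _ (.refl _), ?_⟩
    simp only [sz]
    omega
  | remove Γ A a b =>
    intro ρ _
    have hd : Drop (tr (MTm.scons (.mem (tr ρ a) (tr ρ a)) ρ) b) (tr ρ (b.inst a)) := by
      rw [tr_inst]
      exact tr_drop _ (Drop.scons (.drop _ (.refl _)) _)
    refine .inr ⟨.drop _ (.drop _ hd), ?_⟩
    have := hd.sz_le
    simp only [tr, sz]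
    omega
  | appL N _ ih =>
    intro ρ hρ
    exact (ih hρ).map (fun X => MTm.app X (tr ρ N)) (fun _ _ h => .appL _ h)
      (fun _ _ h => .app h (.refl _)) fun _ _ h => by simp only [sz]; omega
  | appR M _ ih =>
    intro ρ hρ
    exact (ih hρ).map (fun X => MTm.app (tr ρ M) X) (fun _ _ h => .appR _ h)
      (fun _ _ h => .app (.refl _) h) fun _ _ h => by simp only [sz]; omega
  | lamL M _ ih =>
    intro ρ hρ
    exact (ih hρ).map (fun X => MTm.lam X (tr (MTm.ups ρ) M)) (fun _ _ h => .lamL _ h)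
      (fun _ _ h => .lam h (.refl _)) fun _ _ h => by simp only [sz]; omega
  | lamR A _ ih =>
    intro ρ hρ
    exact (ih (hρ.ups A)).map (fun X => MTm.lam (tr ρ A) X) (fun _ _ h => .lamR _ h)
      (fun _ _ h => .lam (.refl _) h) fun _ _ h => by simp only [sz]; omega
  | piL M _ ih =>
    intro ρ hρ
    exact (ih hρ).map (fun X => MTm.pi X (tr (MTm.ups ρ) M)) (fun _ _ h => .piL _ h)
      (fun _ _ h => .pi h (.refl _)) fun _ _ h => by simp only [sz]; omega
  | piR A _ ih =>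
    intro ρ hρ
    exact (ih (hρ.ups A)).map (fun X => MTm.pi (tr ρ A) X) (fun _ _ h => .piR _ h)
      (fun _ _ h => .pi (.refl _) h) fun _ _ h => by simp only [sz]; omega
  | dfnT a b _ ih =>
    intro ρ hρ
    exact (ih hρ).map (fun X => MTm.mem
        (.mem (tr (MTm.scons (.mem (tr ρ a) (tr ρ a)) ρ) b) (tr ρ a)) X) (fun _ _ h => .memR _ h)
      (fun _ _ h => .mem (.refl _) h) fun _ _ h => by simp only [sz]; omega
  | @dfnV Γ A a a' b _ ih =>
    intro ρ hρ
    have hd : ∀ u v : MTm S, Drop u v →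
        Drop (tr (MTm.scons (.mem u u) ρ) b) (tr (MTm.scons (.mem v v) ρ) b) :=
      fun u v h => tr_drop _ (Drop.scons (.mem h h) _)
    rcases ih hρ with ⟨u, h1, h2⟩ | ⟨h1, h2⟩
    · refine .inl ⟨.mem (.mem (tr (MTm.scons (.mem u u) ρ) b) u) (tr ρ A), ?_,
        .mem (.mem (hd _ _ h2) h2) (.refl _)⟩
      have h3 : W.Sts (tr ρ a) u := h1.to_reflTransGen
      have h4 : W.Sts (tr (MTm.scons (.mem (tr ρ a) (tr ρ a)) ρ) b)
          (tr (MTm.scons (.mem u u) ρ) b) := by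
        refine tr_sts _ fun n => ?_
        cases n with
        | zero => exact W.Sts.mem h3 h3
        | succ n => exact .refl _
      refine TransGen.trans_left (W.Sp.map (fun X => MTm.mem
        (.mem (tr (MTm.scons (.mem (tr ρ a) (tr ρ a)) ρ) b) X) (tr ρ A))
        (fun _ _ h => .memL _ (.memR _ h)) h1) ?_
      exact W.Sts.mem (W.Sts.mem h4 (.refl _)) (.refl _)
    · refine .inr ⟨.mem (.mem (hd _ _ h1) h1) (.refl _), ?_⟩
      have := (hd _ _ h1).sz_le
      simp only [tr, sz]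
      omega
  | dfnB A a _ ih =>
    intro ρ hρ
    exact (ih (hρ.scons A a)).map (fun X => MTm.mem (.mem X (tr ρ a)) (tr ρ A))
      (fun _ _ h => .memL _ (.memL _ h))
      (fun _ _ h => .mem (.mem h (.refl _)) (.refl _)) fun _ _ h => by simp only [sz]; omega

/-- The environment of a context. -/
def env : DCtx S → ℕ → MTm S
  | [] => MTm.var
  | (_, none) :: Γ => MTm.ups (env Γ)
  | (_, some a) :: Γ => MTm.scons (.mem (tr (env Γ) a) (tr (env Γ) a)) (env Γ)

/-- The declarations of a context. -/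
def cx : DCtx S → List (Tm S)
  | [] => []
  | (A, none) :: Γ => (tr (env Γ) A).er :: cx Γ
  | (_, some _) :: Γ => cx Γ

theorem match_env : ∀ Γ : DCtx S, Match Γ (env Γ)
  | [] => fun _ _ h => by cases h
  | (A, none) :: Γ => (match_env Γ).ups A
  | (A, some a) :: Γ => (match_env Γ).scons A a

theorem conv_env {Γ : DCtx S} {A B : DTm S} (h : EqvGen (DStep Γ) A B) :
    Conv (tr (env Γ) A).er (tr (env Γ) B).er := by
  induction h with
  | rel _ _ h => exact (h.dec (match_env Γ)).conv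
  | refl _ => exact .refl _
  | symm _ _ _ ih => exact ih.symm
  | trans _ _ _ _ _ ih ih' => exact ih.trans ih'

/-- good expressions -/
def Gd (P : Spec S) (Γ : List (Tm S)) (M : MTm S) : Prop := OkL P Γ M ∧ TS P Γ M.er

/-- The definitions of the context are good. -/
def Val (P : Spec S) : DCtx S → Prop
  | [] => True
  | (_, none) :: Γ => Val P Γ
  | (A, some a) :: Γ => Val P Γ ∧ Gd P (cx Γ) (tr (env Γ) a) ∧ Gd P (cx Γ) (tr (env Γ) A)

theorem ts_of_T {Γ : List (Tm S)} {M A : Tm S} (h : T P Γ M A) (hΓ : WF P Γ) : TS P Γ A := by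
  rcases h.correct hΓ with h | ⟨s, h⟩
  · exact .inr h
  · exact .inl ⟨_, h⟩

/-- What the translation of a judgment satisfies. -/
structure Sound (P : Spec S) (Γ : DCtx S) (M A : DTm S) : Prop where
  ax : ∃ s t, P.ax s t
  wf : WF P (cx Γ)
  val : Val P Γ
  typ : T P (cx Γ) (tr (env Γ) M).er (tr (env Γ) A).er
  okM : OkL P (cx Γ) (tr (env Γ) M)
  okA : OkL P (cx Γ) (tr (env Γ) A)

theorem Sound.gdM {Γ : DCtx S} {M A : DTm S} (h : Sound P Γ M A) :
    Gd P (cx Γ) (tr (env Γ) M) := ⟨h.okM, .inl ⟨_, h.typ⟩⟩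

theorem Sound.gdA {Γ : DCtx S} {M A : DTm S} (h : Sound P Γ M A) :
    Gd P (cx Γ) (tr (env Γ) A) := ⟨h.okA, ts_of_T h.typ h.wf⟩

theorem er_wk (M : MTm S) : M.wk.er = M.er.wk := MTm.er_ren _ _

theorem DTyp.sound {Γ : DCtx S} {M A : DTm S} (h : DTyp P Γ M A) : Sound P Γ M A := by
  induction h with
  | ax h => exact ⟨⟨_, _, h⟩, .nil, trivial, .sort h, .sort _, .sort _⟩
  | @var Γ A s _ ih =>
    refine ⟨ih.ax, .cons ih.wf ih.typ, ih.val, ?_, .var 0, ?_⟩
    · show T P _ (Tm.var 0) (tr (MTm.ups (env Γ)) A.wk).er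
      rw [tr_ups_wk, er_wk]
      exact .var (.zero _ _)
    · show OkL P _ (tr (MTm.ups (env Γ)) A.wk)
      rw [tr_ups_wk]
      exact ih.okM.wk _
  | @weak Γ M B A s _ _ ih ih' =>
    refine ⟨ih.ax, .cons ih.wf ih'.typ, ih.val, ?_, ?_, ?_⟩
    · show T P _ (tr (MTm.ups (env Γ)) M.wk).er (tr (MTm.ups (env Γ)) B.wk).er
      rw [tr_ups_wk, tr_ups_wk, er_wk, er_wk]
      exact ih.typ.wk _
    · show OkL P _ (tr (MTm.ups (env Γ)) M.wk)
      rw [tr_ups_wk]
      exact ih.okM.wk _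
    · show OkL P _ (tr (MTm.ups (env Γ)) B.wk)
      rw [tr_ups_wk]
      exact ih.okA.wk _
  | @dvar Γ A a _ ih =>
    refine ⟨ih.ax, ih.wf, ⟨ih.val, ih.gdM, ih.gdA⟩, ?_, .mem ih.okM ih.okM ih.gdM.2, ?_⟩
    · show T P _ (tr (env Γ) a).er (tr (MTm.scons _ (env Γ)) A.wk).er
      rw [tr_scons_wk]
      exact ih.typ
    · show OkL P _ (tr (MTm.scons _ (env Γ)) A.wk)
      rw [tr_scons_wk]
      exact ih.okA
  | @dweak Γ M B A a _ _ ih ih' =>
    refine ⟨ih.ax, ih.wf, ⟨ih.val, ih'.gdM, ih'.gdA⟩, ?_, ?_, ?_⟩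
    · show T P _ (tr (MTm.scons _ (env Γ)) M.wk).er (tr (MTm.scons _ (env Γ)) B.wk).er
      rw [tr_scons_wk, tr_scons_wk]
      exact ih.typ
    · show OkL P _ (tr (MTm.scons _ (env Γ)) M.wk)
      rw [tr_scons_wk]
      exact ih.okM
    · show OkL P _ (tr (MTm.scons _ (env Γ)) B.wk)
      rw [tr_scons_wk]
      exact ih.okA
  | pi _ _ h ih ih' =>
    exact ⟨ih.ax, ih.wf, ih.val, .pi ih.typ ih'.typ h, .pi ih.okM ih'.okM, .sort _⟩
  | lam _ _ ih ih' =>
    refine ⟨ih.ax, ih'.wf, ih'.val, .lam ih.typ ih'.typ, ?_, ih'.okM⟩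
    have := ih'.okM
    cases this with | pi h1 _ => exact .lam h1 ih.okM
  | @app Γ M N A B _ _ ih ih' =>
    refine ⟨ih.ax, ih.wf, ih.val, ?_, .app ih.okM ih'.okM, ?_⟩
    · rw [tr_inst, ← inst_tr, MTm.er_inst]
      exact .app ih.typ ih'.typ
    · rw [tr_inst, ← inst_tr]
      have := ih.okA
      cases this with | pi _ h2 => exact h2.inst ih'.typ ih'.okM
  | @dfn Γ A a b B _ ih =>
    obtain ⟨h1, h2, h3⟩ := ih.val
    have hd : Drop (tr (MTm.scons (.mem (tr (env Γ) a) (tr (env Γ) a)) (env Γ)) B)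
        (tr (env Γ) (B.inst a)) := by
      rw [tr_inst]
      exact tr_drop _ (Drop.scons (.drop _ (.refl _)) _)
    refine ⟨ih.ax, ih.wf, h1, ?_, .mem (.mem ih.okM h2.1 h2.2) h3.1 h3.2, OkL.drop hd ih.okA⟩
    rw [← hd.er]
    exact ih.typ
  | conv _ _ h ih ih' =>
    exact ⟨ih.ax, ih.wf, ih.val, .conv ih.typ ih'.typ (conv_env h), ih.okM, ih'.okM⟩

theorem acc_legal (hW : WN P) {Γ : DCtx S} {M : DTm S} (h : DLegal P Γ M) :
    Acc (fun a b => DStep Γ b a) M := by
  have h1 : Acc (fun a b : MTm S => Dec b a) (tr (env Γ) M) := by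
    obtain ⟨A, h | h⟩ := h
    · obtain ⟨s, t, h0⟩ := h.sound.ax
      exact acc_dec (acc_of_wn hW h0 h.sound.wf h.sound.gdM.1 h.sound.gdM.2)
    · obtain ⟨s, t, h0⟩ := h.sound.ax
      exact acc_dec (acc_of_wn hW h0 h.sound.wf h.sound.gdA.1 h.sound.gdA.2)
  clear h
  generalize e : tr (env Γ) M = X at h1
  induction h1 generalizing M with
  | intro X _ ih =>
    subst e
    exact Acc.intro _ fun N hN => ih _ (hN.dec (match_env Γ)) rfl

theorem no_inf_of_acc {α : Type u} {r : α → α → Prop} {M : α} (h : Acc (fun a b => r b a) M) :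
    ¬ ∃ f : ℕ → α, f 0 = M ∧ ∀ n, r (f n) (f (n + 1)) := by
  induction h with
  | intro M _ ih =>
    rintro ⟨f, h0, h⟩
    exact ih (f 1) (by rw [← h0]; exact h 0) ⟨fun n => f (n + 1), rfl, fun n => h (n + 1)⟩

theorem nf_of_acc {α : Type u} {r : α → α → Prop} {M : α} (h : Acc (fun a b => r b a) M) :
    ∃ N, ReflTransGen r M N ∧ ∀ Q, ¬ r N Q := by
  induction h with
  | intro M _ ih =>
    by_cases hM : ∃ Q, r M Q
    · obtain ⟨Q, hQ⟩ := hM
      obtain ⟨N, h1, h2⟩ := ih Q hQ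
      exact ⟨N, .head hQ h1, h2⟩
    · exact ⟨M, .refl, fun Q hQ => hM ⟨Q, hQ⟩⟩

theorem dsn_of_wn (hW : WN P) : DSN P := fun _ _ h => no_inf_of_acc (acc_legal hW h)

theorem dwn_of_wn (hW : WN P) : DWN P := fun _ _ h => nf_of_acc (acc_legal hW h)

/-! Expressions without definitions. -/

/-- The embedding. -/
def emb : Tm S → DTm S
  | .var n => .var n
  | .sort s => .sort s
  | .app M N => .app (emb M) (emb N)
  | .lam M N => .lam (emb M) (emb N)
  | .pi M N => .pi (emb M) (emb N)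

theorem emb_ren (M : Tm S) : ∀ r : ℕ → ℕ, emb (M.ren r) = (emb M).ren r := by
  induction M with
  | var n => intro r; rfl
  | sort s => intro r; rfl
  | app M N ih ih' => intro r; simp only [Tm.ren, emb, DTm.ren, ih, ih']
  | lam M N ih ih' => intro r; simp only [Tm.ren, emb, DTm.ren, ih, ih']
  | pi M N ih ih' => intro r; simp only [Tm.ren, emb, DTm.ren, ih, ih']

theorem emb_ups (σ : ℕ → Tm S) :
    (fun n => emb (Tm.ups σ n)) = DTm.ups fun n => emb (σ n) := by
  funext n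
  cases n with
  | zero => rfl
  | succ n => exact emb_ren _ _

theorem emb_sub (M : Tm S) : ∀ σ : ℕ → Tm S,
    emb (M.sub σ) = (emb M).sub fun n => emb (σ n) := by
  induction M with
  | var n => intro r; rfl
  | sort s => intro r; rfl
  | app M N ih ih' => intro r; simp only [Tm.sub, emb, DTm.sub, ih, ih']
  | lam M N ih ih' => intro r; simp only [Tm.sub, emb, DTm.sub, ih, ih', emb_ups]
  | pi M N ih ih' => intro r; simp only [Tm.sub, emb, DTm.sub, ih, ih', emb_ups]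

theorem emb_inst (M N : Tm S) : emb (M.inst N) = (emb M).inst (emb N) := by
  unfold Tm.inst DTm.inst
  rw [emb_sub]
  congr 1
  funext n
  cases n <;> rfl

theorem emb_step {M N : Tm S} (h : Step M N) : ∀ Γ : DCtx S, DStep Γ (emb M) (emb N) := by
  induction h with
  | beta A M N => intro Γ; rw [emb_inst]; exact .beta _ _ _ _
  | appL _ _ ih => intro Γ; exact .appL _ (ih _)
  | appR _ _ ih => intro Γ; exact .appR _ (ih _)
  | lamL _ _ ih => intro Γ; exact .lamL _ (ih _)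
  | lamR _ _ ih => intro Γ; exact .lamR _ (ih _)
  | piL _ _ ih => intro Γ; exact .piL _ (ih _)
  | piR _ _ ih => intro Γ; exact .piR _ (ih _)

theorem emb_conv {M N : Tm S} (h : Conv M N) (Γ : DCtx S) :
    EqvGen (DStep Γ) (emb M) (emb N) := by
  induction h with
  | rel _ _ h => exact .rel _ _ (emb_step h Γ)
  | refl _ => exact .refl _
  | symm _ _ _ ih => exact .symm _ _ ih
  | trans _ _ _ _ _ ih ih' => exact .trans _ _ _ ih ih'

/-- The embedding of contexts. -/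
def embC (Γ : List (Tm S)) : DCtx S := Γ.map fun A => (emb A, none)

theorem emb_typ {Γ : List (Tm S)} {M A : Tm S} (h : Typ P Γ M A) :
    DTyp P (embC Γ) (emb M) (emb A) := by
  induction h with
  | ax h => exact .ax h
  | var _ ih => unfold Tm.wk; rw [emb_ren]; exact .var ih
  | weak _ _ ih ih' => unfold Tm.wk; rw [emb_ren, emb_ren]; exact .weak ih ih'
  | pi _ _ h ih ih' => exact .pi ih ih' h
  | lam _ _ ih ih' => exact .lam ih ih'
  | app _ _ ih ih' => rw [emb_inst]; exact .app ih ih'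
  | conv _ _ h ih ih' => exact .conv ih ih' (emb_conv h _)

theorem emb_legal {M : Tm S} (h : Legal P M) : ∃ Γ, DLegal P (embC Γ) (emb M) := by
  obtain ⟨Γ, A, h | h⟩ := h
  · exact ⟨Γ, _, .inl (emb_typ h)⟩
  · exact ⟨Γ, _, .inr (emb_typ h)⟩

theorem not_defn : ∀ {Γ : List (Tm S)} {n : ℕ} {a : DTm S}, ¬ Defn (embC Γ) n a
  | [], _, _ => fun h => by cases h
  | _ :: _, _, _ => fun h => by
    cases h with
    | succ _ h => exact not_defn h

theorem step_of_emb (M : Tm S) : ∀ {Γ : List (Tm S)} {N' : DTm S}, DStep (embC Γ) (emb M) N' →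
    ∃ N, Step M N ∧ N' = emb N := by
  induction M with
  | var n => intro Γ N' h; cases h with | unfold h => exact absurd h not_defn
  | sort s => intro Γ N' h; cases h
  | app M Q ih ih' =>
    intro Γ N' h
    generalize e : emb (Tm.app M Q) = X at h
    cases h with
    | beta _ A B C =>
      injection e with e1 e2
      subst e2
      cases M with
      | lam A' B' =>
        injection e1 with e3 e4
        subst e3 e4
        exact ⟨_, .beta _ _ _, (emb_inst _ _).symm⟩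
      | _ => cases e1
    | appL _ h =>
      injection e with e1 e2
      subst e1 e2
      obtain ⟨N, h1, rfl⟩ := ih h
      exact ⟨_, .appL _ h1, rfl⟩
    | appR _ h =>
      injection e with e1 e2
      subst e1 e2
      obtain ⟨N, h1, rfl⟩ := ih' h
      exact ⟨_, .appR _ h1, rfl⟩
    | _ => cases e
  | lam A M ih ih' =>
    intro Γ N' h
    cases h with
    | lamL _ h => obtain ⟨N, h1, rfl⟩ := ih h; exact ⟨_, .lamL _ h1, rfl⟩
    | lamR _ h => obtain ⟨N, h1, rfl⟩ := ih' (Γ := A :: Γ) h; exact ⟨_, .lamR _ h1, rfl⟩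
  | pi A M ih ih' =>
    intro Γ N' h
    cases h with
    | piL _ h => obtain ⟨N, h1, rfl⟩ := ih h; exact ⟨_, .piL _ h1, rfl⟩
    | piR _ h => obtain ⟨N, h1, rfl⟩ := ih' (Γ := A :: Γ) h; exact ⟨_, .piR _ h1, rfl⟩

theorem wn_of_dwn (h : DWN P) : WN P := by
  intro M hM
  obtain ⟨Γ, hΓ⟩ := emb_legal hM
  obtain ⟨N', h1, h2⟩ := h _ _ hΓ
  have key : ∃ N, Red M N ∧ N' = emb N := by
    clear h2
    induction h1 with
    | refl => exact ⟨M, .refl _, rfl⟩
    | tail _ h ih =>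
      obtain ⟨N, h3, rfl⟩ := ih
      obtain ⟨N2, h4, rfl⟩ := step_of_emb _ h
      exact ⟨N2, h3.trans (.step h4), rfl⟩
  obtain ⟨N, h3, rfl⟩ := key
  exact ⟨N, h3, fun Q hQ => h2 _ (emb_step hQ _)⟩

theorem sn_of_dsn (h : DSN P) : SN P := by
  rintro M hM ⟨f, h0, hf⟩
  obtain ⟨Γ, hΓ⟩ := emb_legal hM
  exact h _ _ hΓ ⟨fun n => emb (f n), congrArg emb h0, fun n => emb_step (hf n) _⟩

theorem wn_iff_dsn (P : Spec S) : WN P ↔ DSN P :=
  ⟨dsn_of_wn, fun h => wn_of_sn (sn_of_dsn h)⟩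

theorem dwn_iff_dsn (P : Spec S) : DWN P ↔ DSN P :=
  ⟨fun h => dsn_of_wn (wn_of_dwn h), fun h => dwn_of_wn ((wn_iff_dsn P).2 h)⟩

end Vale.Agent.N340
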