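import Vale.Agent.P340.Bdl.B1

/-! Typed expressions with memory are strongly normalizing in a weakly normalizing pure type
system. -/

namespace Vale.Agent.N340

open Vale.Agent.P340 Vale.Agent.P340.W

universe u
variable {S S' : Type u} {P : Spec S}

/-- typed, or a sort -/
def TS (P : Spec S) (Γ : List (Tm S)) (X : Tm S) : Prop :=
  (∃ A, T P Γ X A) ∨ ∃ s, X = Tm.sort s

/-- All memories are typed or sorts. -/
inductive OkL (P : Spec S) : List (Tm S) → MTm S → Prop where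
  | var {Γ : List (Tm S)} (n : ℕ) : OkL P Γ (.var n)
  | sort {Γ : List (Tm S)} (s : S) : OkL P Γ (.sort s)
  | app {Γ : List (Tm S)} {M N : MTm S} : OkL P Γ M → OkL P Γ N → OkL P Γ (.app M N)
  | lam {Γ : List (Tm S)} {A M : MTm S} : OkL P Γ A → OkL P (A.er :: Γ) M → OkL P Γ (.lam A M)
  | pi {Γ : List (Tm S)} {A M : MTm S} : OkL P Γ A → OkL P (A.er :: Γ) M → OkL P Γ (.pi A M)
  | mem {Γ : List (Tm S)} {M N : MTm S} : OkL P Γ M → OkL P Γ N → TS P Γ N.er →
      OkL P Γ (.mem M N)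

theorem TS.ren {Γ Δ : List (Tm S)} {X : Tm S} (h : TS P Γ X) {r : ℕ → ℕ} (hr : RenOk Γ Δ r) :
    TS P Δ (X.ren r) := by
  rcases h with ⟨A, h⟩ | ⟨s, rfl⟩
  · exact .inl ⟨_, h.ren hr⟩
  · exact .inr ⟨s, rfl⟩

theorem TS.sub {Γ Δ : List (Tm S)} {X : Tm S} (h : TS P Γ X) {σ : ℕ → Tm S}
    (hr : SubOk P Γ Δ σ) : TS P Δ (X.sub σ) := by
  rcases h with ⟨A, h⟩ | ⟨s, rfl⟩
  · exact .inl ⟨_, h.sub hr⟩
  · exact .inr ⟨s, rfl⟩

theorem OkL.ren {Γ : List (Tm S)} {M : MTm S} (h : OkL P Γ M) :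
    ∀ {Δ : List (Tm S)} {r : ℕ → ℕ}, RenOk Γ Δ r → OkL P Δ (M.ren r) := by
  induction h with
  | var n => intros; exact .var _
  | sort s => intros; exact .sort _
  | app _ _ ih ih' => intro Δ r hr; exact .app (ih hr) (ih' hr)
  | lam _ _ ih ih' =>
    intro Δ r hr
    refine .lam (ih hr) ?_
    rw [MTm.er_ren]
    exact ih' (hr.up _)
  | pi _ _ ih ih' =>
    intro Δ r hr
    refine .pi (ih hr) ?_
    rw [MTm.er_ren]
    exact ih' (hr.up _)
  | mem _ _ h ih ih' =>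
    intro Δ r hr
    refine .mem (ih hr) (ih' hr) ?_
    rw [MTm.er_ren]
    exact h.ren hr

theorem OkL.wk {Γ : List (Tm S)} {M : MTm S} (h : OkL P Γ M) (A : Tm S) :
    OkL P (A :: Γ) M.wk := h.ren (renOk_wk Γ A)

theorem OkL.ups {Γ : List (Tm S)} {σ : ℕ → MTm S} (A : Tm S) (h : ∀ n, OkL P Γ (σ n)) :
    ∀ n, OkL P (A :: Γ) (MTm.ups σ n) := by
  intro n
  cases n with
  | zero => exact .var 0
  | succ n => exact (h n).wk A

theorem OkL.sub {Γ : List (Tm S)} {M : MTm S} (h : OkL P Γ M) :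
    ∀ {Δ : List (Tm S)} {σ : ℕ → MTm S}, SubOk P Γ Δ (fun n => (σ n).er) →
      (∀ n, OkL P Δ (σ n)) → OkL P Δ (M.sub σ) := by
  induction h with
  | var n => intro Δ σ _ h; exact h n
  | sort s => intros; exact .sort _
  | app _ _ ih ih' => intro Δ r hr h; exact .app (ih hr h) (ih' hr h)
  | lam _ _ ih ih' =>
    intro Δ r hr h
    refine .lam (ih hr h) (ih' ?_ (OkL.ups _ h))
    rw [MTm.er_ups, MTm.er_sub]
    exact hr.up _
  | pi _ _ ih ih' =>
    intro Δ r hr h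
    refine .pi (ih hr h) (ih' ?_ (OkL.ups _ h))
    rw [MTm.er_ups, MTm.er_sub]
    exact hr.up _
  | mem _ _ h1 ih ih' =>
    intro Δ r hr h
    refine .mem (ih hr h) (ih' hr h) ?_
    rw [MTm.er_sub]
    exact h1.sub hr

theorem OkL.inst {Γ : List (Tm S)} {A : Tm S} {M N : MTm S} (h : OkL P (A :: Γ) M)
    (hN : T P Γ N.er A) (hN' : OkL P Γ N) : OkL P Γ (MTm.inst M N) := by
  refine h.sub ?_ fun n => ?_
  · rw [MTm.er_scons]
    have := subOk_single hN
    rwa [Tm.single_eq] at this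
  · cases n with
    | zero => exact hN'
    | succ n => exact .var n

/-! Change of sorts. -/

/-- Replace every sort `s` by `f s`. -/
def mmap (f : S → S') : MTm S → MTm S'
  | .var n => .var n
  | .sort s => .sort (f s)
  | .app M N => .app (mmap f M) (mmap f N)
  | .lam A M => .lam (mmap f A) (mmap f M)
  | .pi A M => .pi (mmap f A) (mmap f M)
  | .mem M N => .mem (mmap f M) (mmap f N)

theorem er_mmap (f : S → S') (M : MTm S) : (mmap f M).er = M.er.map f := by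
  induction M with
  | var n => rfl
  | sort s => rfl
  | app M N ih ih' => simp only [mmap, MTm.er, Tm.map, ih, ih']
  | lam M N ih ih' => simp only [mmap, MTm.er, Tm.map, ih, ih']
  | pi M N ih ih' => simp only [mmap, MTm.er, Tm.map, ih, ih']
  | mem M N ih _ => exact ih

theorem ut_mmap (f : S → S') (M : MTm S) : ut (mmap f M) = ut M := by
  induction M with
  | var n => rfl
  | sort s => rfl
  | app M N ih ih' => simp only [mmap, ut, ih, ih']
  | lam M N ih ih' => simp only [mmap, ut, ih, ih']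
  | pi M N ih ih' => simp only [mmap, ut, ih, ih']
  | mem M N ih ih' => simp only [mmap, ut, ih, ih']

theorem TS.map {Q : Spec S'} {f : S → S'} (hf : Mor P Q f) {Γ : List (Tm S)} {X : Tm S}
    (h : TS P Γ X) : TS Q (Γ.map (Tm.map f)) (X.map f) := by
  rcases h with ⟨A, h⟩ | ⟨s, rfl⟩
  · exact .inl ⟨_, h.map hf⟩
  · exact .inr ⟨f s, rfl⟩

theorem OkL.map {Q : Spec S'} {f : S → S'} (hf : Mor P Q f) {Γ : List (Tm S)} {M : MTm S}
    (h : OkL P Γ M) : OkL Q (Γ.map (Tm.map f)) (mmap f M) := by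
  induction h with
  | var n => exact .var _
  | sort s => exact .sort _
  | app _ _ ih ih' => exact .app ih ih'
  | lam _ _ ih ih' => exact .lam ih (by rw [er_mmap]; exact ih')
  | pi _ _ ih ih' => exact .pi ih (by rw [er_mmap]; exact ih')
  | mem _ _ h ih ih' => exact .mem ih ih' (by rw [er_mmap]; exact h.map hf)

theorem TS.mono {Q : Spec S} (hf : Mor P Q fun s => s) {Γ : List (Tm S)} {X : Tm S}
    (h : TS P Γ X) : TS Q Γ X := by
  rcases h with ⟨A, h⟩ | ⟨s, rfl⟩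
  · exact .inl ⟨_, h.spec_mono hf⟩
  · exact .inr ⟨s, rfl⟩

theorem OkL.mono {Q : Spec S} (hf : Mor P Q fun s => s) {Γ : List (Tm S)} {M : MTm S}
    (h : OkL P Γ M) : OkL Q Γ M := by
  induction h with
  | var n => exact .var _
  | sort s => exact .sort _
  | app _ _ ih ih' => exact .app ih ih'
  | lam _ _ ih ih' => exact .lam ih ih'
  | pi _ _ ih ih' => exact .pi ih ih'
  | mem _ _ h ih ih' => exact .mem ih ih' (h.mono hf)

theorem TS.fin {Γ : List (Tm S)} {X : Tm S} (h : TS P Γ X) :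
    ∃ F : Set S, F.Finite ∧ TS (only P F) Γ X := by
  rcases h with ⟨A, h⟩ | ⟨s, rfl⟩
  · obtain ⟨F, hF, h⟩ := h.fin
    exact ⟨F, hF, .inl ⟨_, h⟩⟩
  · exact ⟨∅, Set.finite_empty, .inr ⟨s, rfl⟩⟩

theorem OkL.fin {Γ : List (Tm S)} {M : MTm S} (h : OkL P Γ M) :
    ∃ F : Set S, F.Finite ∧ OkL (only P F) Γ M := by
  induction h with
  | var n => exact ⟨∅, Set.finite_empty, .var _⟩
  | sort s => exact ⟨∅, Set.finite_empty, .sort _⟩
  | app _ _ ih ih' =>
    obtain ⟨F, hF, h1⟩ := ih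
    obtain ⟨F', hF', h2⟩ := ih'
    exact ⟨F ∪ F', hF.union hF', .app (h1.mono (only_mono Set.subset_union_left))
      (h2.mono (only_mono Set.subset_union_right))⟩
  | lam _ _ ih ih' =>
    obtain ⟨F, hF, h1⟩ := ih
    obtain ⟨F', hF', h2⟩ := ih'
    exact ⟨F ∪ F', hF.union hF', .lam (h1.mono (only_mono Set.subset_union_left))
      (h2.mono (only_mono Set.subset_union_right))⟩
  | pi _ _ ih ih' =>
    obtain ⟨F, hF, h1⟩ := ih
    obtain ⟨F', hF', h2⟩ := ih'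
    exact ⟨F ∪ F', hF.union hF', .pi (h1.mono (only_mono Set.subset_union_left))
      (h2.mono (only_mono Set.subset_union_right))⟩
  | mem _ _ h ih ih' =>
    obtain ⟨F, hF, h1⟩ := ih
    obtain ⟨F', hF', h2⟩ := ih'
    obtain ⟨F'', hF'', h3⟩ := h.fin
    exact ⟨F ∪ (F' ∪ F''), hF.union (hF'.union hF''),
      .mem (h1.mono (only_mono Set.subset_union_left))
        (h2.mono (only_mono fun x hx => .inr (.inl hx)))
        (h3.mono (only_mono fun x hx => .inr (.inr hx)))⟩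

theorem TS.only {Γ : List (Tm S)} {X : Tm S} (h : TS P Γ X) (hΓ : WF P Γ) :
    TS (only P {s | Vy.Liv P s}) Γ X := by
  rcases h with ⟨A, h⟩ | ⟨s, rfl⟩
  · exact .inl ⟨_, h.only hΓ⟩
  · exact .inr ⟨s, rfl⟩

theorem TS.app {Γ : List (Tm S)} {M N : Tm S} (h : TS P Γ (.app M N)) :
    TS P Γ M ∧ TS P Γ N := by
  rcases h with ⟨A, h⟩ | ⟨s, h⟩
  · obtain ⟨A, B, h1, h2, -⟩ := h.app_inv
    exact ⟨.inl ⟨_, h1⟩, .inl ⟨_, h2⟩⟩
  · cases h

theorem TS.pi {Γ : List (Tm S)} {A B : Tm S} (h : TS P Γ (.pi A B)) :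
    (∃ s, T P Γ A (.sort s)) ∧ TS P (A :: Γ) B := by
  rcases h with ⟨C, h⟩ | ⟨s, h⟩
  · obtain ⟨s1, s2, s3, h1, h2, -, -⟩ := h.pi_inv
    exact ⟨⟨_, h1⟩, .inl ⟨_, h2⟩⟩
  · cases h

theorem TS.lam {Γ : List (Tm S)} {A M : Tm S} (h : TS P Γ (.lam A M)) :
    (∃ s, T P Γ A (.sort s)) ∧ TS P (A :: Γ) M := by
  rcases h with ⟨C, h⟩ | ⟨s, h⟩
  · obtain ⟨B, s, h1, h2, -⟩ := h.lam_inv
    obtain ⟨s1, s2, s3, h3, -, -, -⟩ := h2.pi_inv
    exact ⟨⟨_, h3⟩, .inl ⟨_, h1⟩⟩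
  · cases h

theorem OkL.only {Γ : List (Tm S)} {M : MTm S} (h : OkL P Γ M) :
    WF P Γ → TS P Γ M.er → OkL (only P {s | Vy.Liv P s}) Γ M := by
  induction h with
  | var n => intros; exact .var _
  | sort s => intros; exact .sort _
  | app _ _ ih ih' => intro hΓ h; exact .app (ih hΓ h.app.1) (ih' hΓ h.app.2)
  | lam _ _ ih ih' =>
    intro hΓ h
    obtain ⟨⟨s, h1⟩, h2⟩ := h.lam
    exact .lam (ih hΓ (.inl ⟨_, h1⟩)) (ih' (.cons hΓ h1) h2)
  | pi _ _ ih ih' =>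
    intro hΓ h
    obtain ⟨⟨s, h1⟩, h2⟩ := h.pi
    exact .pi (ih hΓ (.inl ⟨_, h1⟩)) (ih' (.cons hΓ h1) h2)
  | mem _ _ h1 ih ih' => intro hΓ h; exact .mem (ih hΓ h) (ih' hΓ h1) (h1.only hΓ)

/-! Replacing untyped sorts in memory by a typed sort. -/

/-- replace the sort at the head -/
def hs (s0 : S) : MTm S → MTm S
  | .sort _ => .sort s0
  | .mem M N => .mem (hs s0 M) N
  | M => M

/-- replace the sorts at the heads of all memories -/
def fix (s0 : S) : MTm S → MTm S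
  | .var n => .var n
  | .sort s => .sort s
  | .app M N => .app (fix s0 M) (fix s0 N)
  | .lam A M => .lam (fix s0 A) (fix s0 M)
  | .pi A M => .pi (fix s0 A) (fix s0 M)
  | .mem M N => .mem (fix s0 M) (hs s0 (fix s0 N))

theorem ut_hs (s0 : S) (M : MTm S) : ut (hs s0 M) = ut M := by
  induction M with
  | mem M N ih _ => simp only [hs, ut, ih]
  | _ => rfl

theorem ut_fix (s0 : S) (M : MTm S) : ut (fix s0 M) = ut M := by
  induction M with
  | var n => rfl
  | sort s => rfl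
  | app M N ih ih' => simp only [fix, ut, ih, ih']
  | lam M N ih ih' => simp only [fix, ut, ih, ih']
  | pi M N ih ih' => simp only [fix, ut, ih, ih']
  | mem M N ih ih' => simp only [fix, ut, ih, ih', ut_hs]

theorem er_fix (s0 : S) (M : MTm S) : (fix s0 M).er = M.er := by
  induction M with
  | var n => rfl
  | sort s => rfl
  | app M N ih ih' => simp only [fix, MTm.er, ih, ih']
  | lam M N ih ih' => simp only [fix, MTm.er, ih, ih']
  | pi M N ih ih' => simp only [fix, MTm.er, ih, ih']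
  | mem M N ih _ => exact ih

theorem er_hs (s0 : S) (M : MTm S) :
    (hs s0 M).er = Tm.sort s0 ∨ ((hs s0 M).er = M.er ∧ ∀ s, M.er ≠ Tm.sort s) := by
  induction M with
  | sort s => exact .inl rfl
  | mem M N ih _ => exact ih
  | _ => exact .inr ⟨rfl, fun s h => by cases h⟩

theorem ok_hs (s0 : S) {G : Ctx S} {M : MTm S} (h : Ok P G M) : Ok P G (hs s0 M) := by
  induction h with
  | var n => exact .var n
  | sort s => exact .sort s0
  | app h h' _ _ => exact .app h h'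
  | lam h h' _ _ => exact .lam h h'
  | pi h h' _ _ => exact .pi h h'
  | mem _ h' hT ih _ => exact .mem ih h' hT

theorem typed_hs {s0 t0 : S} (h0 : P.ax s0 t0) {Γ : List (Tm S)} {M : MTm S}
    (h : TS P Γ M.er) : ∃ A, J P (ofList Γ) (hs s0 (fix s0 M)).er A := by
  rcases er_hs s0 (fix s0 M) with h1 | ⟨h1, h2⟩
  · rw [h1]
    exact ⟨_, .sort h0⟩
  · rw [h1, er_fix]
    rw [er_fix] at h2
    rcases h with ⟨A, h⟩ | ⟨s, h⟩
    · exact ⟨A, h.toJ⟩
    · exact absurd h (h2 s)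

theorem OkL.ok {s0 t0 : S} (h0 : P.ax s0 t0) {Γ : List (Tm S)} {M : MTm S} (h : OkL P Γ M) :
    Ok P (ofList Γ) (fix s0 M) := by
  induction h with
  | var n => exact .var _
  | sort s => exact .sort _
  | app _ _ ih ih' => exact .app ih ih'
  | lam _ _ ih ih' => exact .lam ih (by rw [er_fix]; exact ih')
  | pi _ _ ih ih' => exact .pi ih (by rw [er_fix]; exact ih')
  | mem _ _ h ih ih' =>
    obtain ⟨A, hA⟩ := typed_hs h0 h
    exact .mem ih (ok_hs s0 ih') hA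

/-! The theorem. -/

/-- Typed expressions with memory are strongly normalizing. -/
def MS (P : Spec S) : Prop :=
  ∀ s0 t0, P.ax s0 t0 → ∀ Γ M, WF P Γ → OkL P Γ M → TS P Γ M.er → SnX Set.univ (ut M)

theorem snX_of_nf {M N : MTm S} (h : W.Sts M N) (hN : ∀ Q, ¬ W.St N Q) :
    SnX Set.univ (ut M) := by
  have h1 : Vale.Agent.P340.Sts Set.univ (ut M) (ut N) := by
    clear hN
    induction h with
    | refl => exact .refl _
    | tail _ h ih => exact ih.trans h.ut.sts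
  exact snX_of_wn h1 fun Q hQ => by
    obtain ⟨Q', h3⟩ := st_of_ut hQ
    exact hN _ h3

theorem cl_zero [Finite S] (hl : ∀ s, Vy.Liv P s) (hW : WN P) : ∃ lv, Cl P lv 0 := by
  have : Countable S := Finite.to_countable
  obtain ⟨lv, hlv, hb⟩ := exists_lv P
  obtain ⟨K, hK⟩ : ∃ K, ∀ s, lv s < K := by
    obtain ⟨K, hK⟩ := (Set.finite_range lv).bddAbove
    exact ⟨K + 1, fun s => Nat.lt_succ_of_le (hK ⟨s, rfl⟩)⟩
  have h : ∀ i, Cl P lv (i + 1) → Cl P lv i := by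
    intro i
    rcases lv_good' hl hW hb i with ⟨χ, h⟩ | h | h
    · exact cl_even hW hlv h
    · exact cl_lin hW hlv h
    · exact cl_step hW hlv (NM.rankModel hW hlv h)
  have h0 : Cl P lv K := fun Γ M T hΓ hM => ⟨M, .refl _, nm_top hK hΓ.wfc hM.1 hM.2⟩
  refine ⟨lv, ?_⟩
  clear hK
  induction K with
  | zero => exact h0
  | succ K ih => exact ih (h K h0)

theorem ms_live [Finite S] (hl : ∀ s, Vy.Liv P s) (hW : WN P) : MS P := by
  obtain ⟨lv, hc⟩ := cl_zero hl hW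
  intro s0 t0 h0 Γ M hΓ hM hT
  obtain ⟨A, hA⟩ := typed_hs h0 hT
  obtain ⟨N, h1, h2⟩ := hc Γ (hs s0 (fix s0 M)) A hΓ ⟨ok_hs s0 (hM.ok h0), hA⟩
  have := snX_of_nf h1 h2.nf
  rwa [ut_hs, ut_fix] at this

theorem MS.transfer {Q : Spec S'} {f : S → S'} (hf : Mor P Q f) (h : MS Q) : MS P := by
  intro s0 t0 h0 Γ M hΓ hM hT
  have := h _ _ (hf.ax h0) _ _ (hΓ.map hf) (hM.map hf) (by rw [er_mmap]; exact hT.map hf)
  rwa [ut_mmap] at this

theorem ms_of_live (h : MS (restr P {s | Vy.Liv P s})) : MS P := by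
  intro s0 t0 h0 Γ M hΓ hM hT
  exact MS.transfer (mor_retr {s | Vy.Liv P s} ⟨s0, Vy.Liv.ax h0⟩) h s0 t0
    ⟨h0, Vy.Liv.ax h0, Vy.Liv.ty h0⟩ Γ M hΓ.only (hM.only hΓ hT) (hT.only hΓ)

theorem ms_of_restr (h : ∀ F : Set S, F.Finite → MS (restr P F)) : MS P := by
  intro s0 t0 h0 Γ M hΓ hM hT
  obtain ⟨F1, hF1, h1⟩ := hΓ.fin
  obtain ⟨F2, hF2, h2⟩ := hM.fin
  obtain ⟨F3, hF3, h3⟩ := hT.fin
  let F : Set S := insert s0 (insert t0 (F1 ∪ (F2 ∪ F3)))
  have hF : F.Finite := ((hF1.union (hF2.union hF3)).insert t0).insert s0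
  exact MS.transfer (mor_retr F ⟨s0, .inl rfl⟩) (h F hF) s0 t0
    ⟨h0, .inl rfl, .inr (.inl rfl)⟩ Γ M
    (h1.spec_mono (only_mono fun x hx => .inr (.inr (.inl hx))))
    (h2.mono (only_mono fun x hx => .inr (.inr (.inr (.inl hx)))))
    (h3.mono (only_mono fun x hx => .inr (.inr (.inr (.inr hx)))))

theorem ms_of_wn (hW : WN P) : MS P :=
  ms_of_restr fun F hF => by
    have : Finite F := hF
    exact ms_of_live (ms_live liv_restr ((hW.restr F).restr _))

/-- **Typed expressions with memory are strongly normalizing.** -/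
theorem acc_of_wn (hW : WN P) {s0 t0 : S} (h0 : P.ax s0 t0) {Γ : List (Tm S)} {M : MTm S}
    (hΓ : WF P Γ) (hM : OkL P Γ M) (hT : TS P Γ M.er) : Acc (fun a b => W.St b a) M := by
  have h := ms_of_wn hW s0 t0 h0 Γ M hΓ hM hT
  generalize e : ut M = X at h
  clear hM hT
  induction h generalizing M with
  | intro X _ ih =>
    subst e
    exact Acc.intro _ fun N hN => ih (ut N) hN.ut rfl

end Vale.Agent.N340
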